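import Vale.Agent.P281.ISO.MainQ
import Vale.Agent.P281.ELL.MainL
import Vale.Agent.P281.ELL.MainC

open scoped Manifold ContDiff Topology
open Vale.Agent.P281.J

namespace Vale.Agent.Results.P281.CampanaInequality

universe u

/-- Campana's inequality for isotrivial pairs. -/
def IsotrivialPairs : Prop :=
  ∀ {E E' E₀ : Type} [NormedAddCommGroup E] [NormedSpace ℂ E] [FiniteDimensional ℂ E]
    [NormedAddCommGroup E'] [NormedSpace ℂ E'] [FiniteDimensional ℂ E']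
    [NormedAddCommGroup E₀] [NormedSpace ℂ E₀] [FiniteDimensional ℂ E₀]
    {X Z Y F : Type u} [TopologicalSpace X] [ChartedSpace E X] [IsManifold 𝓘(ℂ, E) ω X]
    [CompactSpace X] [T2Space X] [ConnectedSpace X]
    [TopologicalSpace Z] [ChartedSpace E Z] [IsManifold 𝓘(ℂ, E) ω Z]
    [TopologicalSpace Y] [ChartedSpace E' Y] [IsManifold 𝓘(ℂ, E') ω Y] [T2Space Y]
    [TopologicalSpace F] [ChartedSpace E₀ F] [IsManifold 𝓘(ℂ, E₀) ω F]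
    [CompactSpace F] [ConnectedSpace F]
    (_ : Module.finrank ℂ E = Module.finrank ℂ E' + Module.finrank ℂ E₀)
    (j : Z → X) (_ : IsBigOpen E j) (f : Z → Y) (_ : ContMDiff 𝓘(ℂ, E) 𝓘(ℂ, E') ω f)
    (𝒢 : Set (Set Y)) (_ : IsDivisorial E E' f 𝒢)
    {ι : Type u} (U : ι → Set Y) (q : ι → Z → F) (_ : IsFibreBundle E E' E₀ f (⋃₀ 𝒢) U q)
    (ΔF : Set F → ℝ) (_ : IsSNC E₀ ΔF) (_ : ∀ C, ΔF C < 1)
    (_ : HasFiniteMonodromy E₀ f U q ΔF)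
    (Δ : Set X → ℝ) (_ : IsSNC E Δ) (Δ' : Set Z → ℝ) (_ : IsSNC E Δ')
    (_ : IsRestriction j Δ Δ') (_ : IsSubPair E E₀ f U q Δ' ΔF)
    (_ : ∀ G, orbBase' E E' f Δ' G ≠ 0 → G ∈ 𝒢),
    kod E₀ (fun (C : Set F) p g => IsLocalEq E₀ C g p) ΔF +
      kod E' (fun (G : Set Y) z g => IsLocalEq E' G g z) (orbBase' E E' f Δ') ≤
      kod E (fun (D : Set X) z g => IsLocalEq E D g z) Δ

/-- Campana's inequality for elliptic fibrations with arbitrary variation and boundary. -/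
def EllipticPairs : Prop :=
  ∀ {E E' E₀ : Type} [NormedAddCommGroup E] [NormedSpace ℂ E] [FiniteDimensional ℂ E]
    [NormedAddCommGroup E'] [NormedSpace ℂ E'] [FiniteDimensional ℂ E']
    [NormedAddCommGroup E₀] [NormedSpace ℂ E₀] [FiniteDimensional ℂ E₀]
    {X Z Y F : Type u} [TopologicalSpace X] [ChartedSpace E X] [IsManifold 𝓘(ℂ, E) ω X]
    [CompactSpace X] [T2Space X] [ConnectedSpace X]
    [TopologicalSpace Z] [ChartedSpace E Z] [IsManifold 𝓘(ℂ, E) ω Z]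
    [TopologicalSpace Y] [ChartedSpace E' Y] [IsManifold 𝓘(ℂ, E') ω Y] [T2Space Y]
    [TopologicalSpace F] [ChartedSpace E₀ F] [IsManifold 𝓘(ℂ, E₀) ω F]
    [CompactSpace F] [ConnectedSpace F]
    (_ : Module.finrank ℂ E = Module.finrank ℂ E' + 1) (_ : Module.finrank ℂ E₀ = 1)
    (j : Z → X) (_ : IsBigOpen E j) (f : Z → Y) (_ : ContMDiff 𝓘(ℂ, E) 𝓘(ℂ, E') ω f)
    (𝒢 : Set (Set Y)) (_ : IsDivisorial E E' f 𝒢)
    {ι : Type u} (U : ι → Set Y) (τ : ι → Y → ℂ) (π : ι → Y → ℂ → Z)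
    (_ : IsEllipticOver E E' f (⋃₀ 𝒢) U τ π)
    (Δ : Set X → ℝ) (_ : IsSNC E Δ) (Δ' : Set Z → ℝ) (_ : IsSNC E Δ')
    (_ : IsRestriction j Δ Δ') (_ : ∀ G, orbBase' E E' f Δ' G ≠ 0 → G ∈ 𝒢)
    {y : Y} (_ : y ∉ ⋃₀ 𝒢) (i : F → Z) (_ : ContMDiff 𝓘(ℂ, E₀) 𝓘(ℂ, E) ω i)
    (_ : Topology.IsEmbedding i) (_ : Set.range i = f ⁻¹' {y})
    (_ : ∀ p, Function.Injective (mfderiv 𝓘(ℂ, E₀) 𝓘(ℂ, E) i p))
    (ΔF : Set F → ℝ) (_ : IsSNC E₀ ΔF) (_ : IsCarriedBy E' f U π Δ' i ΔF),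
    kod E₀ (fun (C : Set F) p g => IsLocalEq E₀ C g p) ΔF +
      kod E' (fun (G : Set Y) z g => IsLocalEq E' G g z) (orbBase' E E' f Δ') ≤
      kod E (fun (D : Set X) z g => IsLocalEq E D g z) Δ

/-- Campana's inequality for families of branched covers of `ℙ¹` with moving branch points. -/
def CurvesOverTheLine : Prop :=
  ∀ {E E' E₀ : Type} [NormedAddCommGroup E] [NormedSpace ℂ E] [FiniteDimensional ℂ E]
    [NormedAddCommGroup E'] [NormedSpace ℂ E'] [FiniteDimensional ℂ E']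
    [NormedAddCommGroup E₀] [NormedSpace ℂ E₀] [FiniteDimensional ℂ E₀]
    {X Z Y F : Type u} [TopologicalSpace X] [ChartedSpace E X] [IsManifold 𝓘(ℂ, E) ω X]
    [CompactSpace X] [T2Space X] [ConnectedSpace X]
    [TopologicalSpace Z] [ChartedSpace E Z] [IsManifold 𝓘(ℂ, E) ω Z]
    [TopologicalSpace Y] [ChartedSpace E' Y] [IsManifold 𝓘(ℂ, E') ω Y] [T2Space Y]
    [TopologicalSpace F] [ChartedSpace E₀ F] [IsManifold 𝓘(ℂ, E₀) ω F]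
    (_ : Module.finrank ℂ E = Module.finrank ℂ E' + 1) (_ : Module.finrank ℂ E₀ = 1)
    (j : Z → X) (_ : IsBigOpen E j) (f : Z → Y) (_ : ContMDiff 𝓘(ℂ, E) 𝓘(ℂ, E') ω f)
    (𝒢 : Set (Set Y)) (_ : IsDivisorial E E' f 𝒢)
    {n e d : ℕ} (_ : 1 ≤ e) (_ : 3 ≤ d)
    {𝒲 : Set (Set Z)} (_ : 𝒲.Finite) (_ : ∀ D ∈ 𝒲, IsPrime E D)
    {ι : Type u} (U : ι → Set Y) (p : ι → Fin d → Y → ℂ × ℂ) (c : ι → Z → ℂ × ℂ)
    (_ : IsBranchedOver E E' f (⋃₀ 𝒢) n e d 𝒲 U p c)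
    (Δ : Set X → ℝ) (_ : IsSNC E Δ) (Δ' : Set Z → ℝ) (_ : IsSNC E Δ')
    (_ : IsRestriction j Δ Δ') (_ : ∀ G, orbBase' E E' f Δ' G ≠ 0 → G ∈ 𝒢)
    {δ : ℝ} (_ : 0 ≤ δ) (_ : ∀ D ∈ 𝒲, δ ≤ Δ' D)
    (_ : 2 < ((e : ℝ) - 1) * (d - 2) + d * δ)
    (ΔF : Set F → ℝ),
    kod E₀ (fun (C : Set F) p g => IsLocalEq E₀ C g p) ΔF +
      kod E' (fun (G : Set Y) z g => IsLocalEq E' G g z) (orbBase' E E' f Δ') ≤
      kod E (fun (D : Set X) z g => IsLocalEq E D g z) Δ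

/-- Campana's inequality `κ(X, K_X + Δ) ≥ κ(F, K_F + Δ|_F) + κ(Y, K_Y + B(f, Δ))` for isotrivial
pairs, for elliptic fibrations, and for families of branched covers of the projective line (for
instance hyperelliptic fibrations), with arbitrary degenerate and multiple fibres. -/
theorem result : IsotrivialPairs.{u} ∧ EllipticPairs.{u} ∧ CurvesOverTheLine.{u} := by
  refine ⟨?_, ?_, ?_⟩
  · intro E E' E₀ _ _ _ _ _ _ _ _ _ X Z Y F _ _ _ _ _ _ _ _ _ _ _ _ _ _ _ _ _ _ hE j hj f hf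
      𝒢 h𝒢 ι U q hB ΔF hF hlt hM Δ hsnc Δ' hsnc' hΔ hp hBS
    exact Vale.Agent.P281.ISO.main_pairs hE j hj f hf 𝒢 h𝒢 U q hB ΔF hF hlt hM Δ hsnc Δ' hsnc' hΔ
      hp hBS
  · intro E E' E₀ _ _ _ _ _ _ _ _ _ X Z Y F _ _ _ _ _ _ _ _ _ _ _ _ _ _ _ _ _ _ hE hE₀ j hj f hf
      𝒢 h𝒢 ι U τ π hB Δ hsnc Δ' hsnc' hΔ hBS y hy i hi hi₁ hi₂ hi₃ ΔF hF hΔF
    exact Vale.Agent.P281.ELL.main_log hE hE₀ j hj f hf 𝒢 h𝒢 U τ π hB Δ hsnc Δ' hsnc' hΔ hBS hy i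
      hi hi₁ hi₂ hi₃ ΔF hF hΔF
  · intro E E' E₀ _ _ _ _ _ _ _ _ _ X Z Y F _ _ _ _ _ _ _ _ _ _ _ _ _ _ _ _ hE hE₀ j hj f hf
      𝒢 h𝒢 n e d he hd 𝒲 h𝒲 h𝒲' ι U p c hB Δ hsnc Δ' hsnc' hΔ hBS δ hδ₀ hδ hgen ΔF
    exact Vale.Agent.P281.ELL.main_cov hE hE₀ j hj f hf 𝒢 h𝒢 he hd h𝒲 h𝒲' U p c hB Δ hsnc Δ' hsnc'
      hΔ hBS hδ₀ hδ hgen ΔF

end Vale.Agent.Results.P281.CampanaInequality
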