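import Vale.Agent.P281.ELL.MainC

open scoped Manifold ContDiff Topology
open Vale.Agent.P281.J

namespace Vale.Agent.Results.P281.CurvesOverTheLine

universe u

/-- Campana's inequality `κ(X, K_X + Δ) ≥ κ(F, K_F + Δ_F) + κ(Y, K_Y + B(f, Δ))` for families of
curves which are branched covers of `ℙ¹` with moving branch points: `f : X ⇢ Y` is a meromorphic
map, holomorphic on the open subset `Z` (embedded by `j`) of the compact manifold `X`, whose
complement has codimension `≥ 2` (`Z = X` is allowed); over the complement of finitely many prime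
divisors `G ∈ 𝒢` of `Y`, the fibres of `f` are curves with maps to `ℙ¹`, étale except over
`d ≥ 3` distinct points varying holomorphically with the base point, with ramification index `e` at
all the points above them, where the coefficients of `Δ` are at least `δ`, and
`2 < (e - 1) (d - 2) + d δ`; every component of `f⁻¹(⋃ G)` dominates a `G`, and `𝒢` contains the
components of `B(f, Δ)`.  For instance (`e = 2`, `d = 2 g + 2`, `δ = 0`) the fibres are
hyperelliptic curves of genus `g ≥ 2` and `Δ` is arbitrary. -/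
theorem result {E E' E₀ : Type} [NormedAddCommGroup E] [NormedSpace ℂ E] [FiniteDimensional ℂ E]
    [NormedAddCommGroup E'] [NormedSpace ℂ E'] [FiniteDimensional ℂ E']
    [NormedAddCommGroup E₀] [NormedSpace ℂ E₀] [FiniteDimensional ℂ E₀]
    {X Z Y F : Type u} [TopologicalSpace X] [ChartedSpace E X] [IsManifold 𝓘(ℂ, E) ω X]
    [CompactSpace X] [T2Space X] [ConnectedSpace X]
    [TopologicalSpace Z] [ChartedSpace E Z] [IsManifold 𝓘(ℂ, E) ω Z]
    [TopologicalSpace Y] [ChartedSpace E' Y] [IsManifold 𝓘(ℂ, E') ω Y] [T2Space Y]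
    [TopologicalSpace F] [ChartedSpace E₀ F] [IsManifold 𝓘(ℂ, E₀) ω F]
    (hE : Module.finrank ℂ E = Module.finrank ℂ E' + 1) (hE₀ : Module.finrank ℂ E₀ = 1)
    (j : Z → X) (hj : IsBigOpen E j) (f : Z → Y) (hf : ContMDiff 𝓘(ℂ, E) 𝓘(ℂ, E') ω f)
    (𝒢 : Set (Set Y)) (h𝒢 : IsDivisorial E E' f 𝒢)
    {n e d : ℕ} (he : 1 ≤ e) (hd : 3 ≤ d)
    {𝒲 : Set (Set Z)} (h𝒲 : 𝒲.Finite) (h𝒲' : ∀ D ∈ 𝒲, IsPrime E D)
    {ι : Type u} (U : ι → Set Y) (p : ι → Fin d → Y → ℂ × ℂ) (c : ι → Z → ℂ × ℂ)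
    (hB : IsBranchedOver E E' f (⋃₀ 𝒢) n e d 𝒲 U p c)
    (Δ : Set X → ℝ) (hsnc : IsSNC E Δ) (Δ' : Set Z → ℝ) (hsnc' : IsSNC E Δ')
    (hΔ : IsRestriction j Δ Δ') (hBS : ∀ G, orbBase' E E' f Δ' G ≠ 0 → G ∈ 𝒢)
    {δ : ℝ} (hδ₀ : 0 ≤ δ) (hδ : ∀ D ∈ 𝒲, δ ≤ Δ' D)
    (hgen : 2 < ((e : ℝ) - 1) * (d - 2) + d * δ)
    (ΔF : Set F → ℝ) :
    kod E₀ (fun (C : Set F) p g => IsLocalEq E₀ C g p) ΔF +
      kod E' (fun (G : Set Y) z g => IsLocalEq E' G g z) (orbBase' E E' f Δ') ≤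
      kod E (fun (D : Set X) z g => IsLocalEq E D g z) Δ :=
  Vale.Agent.P281.ELL.main_cov hE hE₀ j hj f hf 𝒢 h𝒢 he hd h𝒲 h𝒲' U p c hB Δ hsnc Δ' hsnc' hΔ hBS
    hδ₀ hδ hgen ΔF

end Vale.Agent.Results.P281.CurvesOverTheLine
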