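import Vale.Agent.P281.ISO.MainQ

open scoped Manifold ContDiff Topology
open Vale.Agent.P281.J

namespace Vale.Agent.Results.P281.IsotrivialPairs

universe u

/-- Campana's inequality `κ(X, K_X + Δ) ≥ κ(F, K_F + Δ_F) + κ(Y, K_Y + B(f, Δ))` for isotrivial
pairs: `f : X ⇢ Y` is a meromorphic map, holomorphic on the open subset `Z` (embedded by `j`) of
the compact manifold `X`, whose complement has codimension `≥ 2` (`Z = X` is allowed); over the
complement of finitely many prime divisors `G ∈ 𝒢` of `Y`, `f` is a holomorphic fibre bundle with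
compact connected fibre `F`, and `q^* Δ_F ≤ Δ` for its local projections `q` to the pair
`(F, Δ_F)`, `Δ_F < 1`; the monodromy on the sections of the `m (K_F + Δ_F)` is finite; every
component of `f⁻¹(⋃ G)` dominates a `G`, and `𝒢` contains the components of `B(f, Δ)`. -/
theorem result {E E' E₀ : Type} [NormedAddCommGroup E] [NormedSpace ℂ E] [FiniteDimensional ℂ E]
    [NormedAddCommGroup E'] [NormedSpace ℂ E'] [FiniteDimensional ℂ E']
    [NormedAddCommGroup E₀] [NormedSpace ℂ E₀] [FiniteDimensional ℂ E₀]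
    {X Z Y F : Type u} [TopologicalSpace X] [ChartedSpace E X] [IsManifold 𝓘(ℂ, E) ω X]
    [CompactSpace X] [T2Space X] [ConnectedSpace X]
    [TopologicalSpace Z] [ChartedSpace E Z] [IsManifold 𝓘(ℂ, E) ω Z]
    [TopologicalSpace Y] [ChartedSpace E' Y] [IsManifold 𝓘(ℂ, E') ω Y] [T2Space Y]
    [TopologicalSpace F] [ChartedSpace E₀ F] [IsManifold 𝓘(ℂ, E₀) ω F]
    [CompactSpace F] [ConnectedSpace F]
    (hE : Module.finrank ℂ E = Module.finrank ℂ E' + Module.finrank ℂ E₀)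
    (j : Z → X) (hj : IsBigOpen E j) (f : Z → Y) (hf : ContMDiff 𝓘(ℂ, E) 𝓘(ℂ, E') ω f)
    (𝒢 : Set (Set Y)) (h𝒢 : IsDivisorial E E' f 𝒢)
    {ι : Type u} (U : ι → Set Y) (q : ι → Z → F) (hB : IsFibreBundle E E' E₀ f (⋃₀ 𝒢) U q)
    (ΔF : Set F → ℝ) (hF : IsSNC E₀ ΔF) (hlt : ∀ C, ΔF C < 1)
    (hM : HasFiniteMonodromy E₀ f U q ΔF)
    (Δ : Set X → ℝ) (hsnc : IsSNC E Δ) (Δ' : Set Z → ℝ) (hsnc' : IsSNC E Δ')
    (hΔ : IsRestriction j Δ Δ') (hp : IsSubPair E E₀ f U q Δ' ΔF)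
    (hBS : ∀ G, orbBase' E E' f Δ' G ≠ 0 → G ∈ 𝒢) :
    kod E₀ (fun (C : Set F) p g => IsLocalEq E₀ C g p) ΔF +
      kod E' (fun (G : Set Y) z g => IsLocalEq E' G g z) (orbBase' E E' f Δ') ≤
      kod E (fun (D : Set X) z g => IsLocalEq E D g z) Δ :=
  Vale.Agent.P281.ISO.main_pairs hE j hj f hf 𝒢 h𝒢 U q hB ΔF hF hlt hM Δ hsnc Δ' hsnc' hΔ hp hBS

end Vale.Agent.Results.P281.IsotrivialPairs
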