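import Vale.Agent.P281.H76.Main3

open scoped Manifold ContDiff Topology
open Vale.Agent.P281.J Vale.Agent.P281.H76

namespace Vale.Agent.Results.P281.SingularCovers

universe u

/-- Campana's inequality for `f' = f ∘ q : X' → Y`, where `f : X → Y` is a `ℙ(W)`-bundle and
`q : X' → X` is a generically finite map with `K_{X'} + Δ' = q^* (K_X + Δ) + R`, `R` effective and
`0` on the open set `S`, which contains the fibre `F`; `F` is transversal to `Δ'`, and `Δ` is an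
arbitrary boundary.  The base is `B(f, Δ)` and, if `R` is `q`-exceptional, `B(f', Δ')`. -/
theorem result {E E' E₀ W : Type} [NormedAddCommGroup E] [NormedSpace ℂ E] [FiniteDimensional ℂ E]
    [NormedAddCommGroup E'] [NormedSpace ℂ E'] [FiniteDimensional ℂ E']
    [NormedAddCommGroup E₀] [NormedSpace ℂ E₀] [FiniteDimensional ℂ E₀]
    [NormedAddCommGroup W] [NormedSpace ℂ W] [FiniteDimensional ℂ W]
    {X Y X' F : Type u} [TopologicalSpace X] [ChartedSpace E X] [IsManifold 𝓘(ℂ, E) ω X]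
    [CompactSpace X] [T2Space X] [ConnectedSpace X]
    [TopologicalSpace Y] [ChartedSpace E' Y] [IsManifold 𝓘(ℂ, E') ω Y] [T2Space Y]
    [TopologicalSpace X'] [ChartedSpace E X'] [IsManifold 𝓘(ℂ, E) ω X']
    [CompactSpace X'] [ConnectedSpace X']
    [TopologicalSpace F] [ChartedSpace E₀ F] [IsManifold 𝓘(ℂ, E₀) ω F] [ConnectedSpace F]
    (hW : 1 < Module.finrank ℂ W)
    (hE : Module.finrank ℂ E + 1 = Module.finrank ℂ E' + Module.finrank ℂ W)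
    (hd : Module.finrank ℂ E₀ + 1 = Module.finrank ℂ W)
    (f : X → Y) (hf : ContMDiff 𝓘(ℂ, E) 𝓘(ℂ, E') ω f)
    {ι : Type u} (U : ι → Set Y) (π : ι → Y → W → X) (hB : IsBundle E E' f U π)
    (Δ : Set X → ℝ) (hb : IsBoundary E Δ)
    (hΔ : ∀ D, Δ D ≠ 0 → ∃ d : ℕ, ∀ a, ∃ p : Y → W → ℂ,
      (∀ y ∈ U a, ContDiff ℂ ω (p y) ∧ ∀ (c : ℂ) w, p y (c • w) = c ^ d * p y w) ∧
      ∀ x v, f x ∈ U a → IsLift E f (π a) v x → IsLocalEq E D (fun z => p (f z) (v z)) x)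
    (q : X' → X) (hq : ContMDiff 𝓘(ℂ, E) 𝓘(ℂ, E) ω q) (hs : Function.Surjective q)
    (Δ' : Set X' → ℝ) (hb' : IsBoundary E Δ') (S : Set X') (hS : IsOpen S)
    (hlog : IsLogMap E q Δ' Δ S) (y : Y) (hy : (f ∘ q) ⁻¹' {y} ⊆ S)
    (htr : IsTransversal E E' (f ∘ q) Δ' y)
    (i : F → X') (hi : ContMDiff 𝓘(ℂ, E₀) 𝓘(ℂ, E) ω i) (hi₁ : Topology.IsEmbedding i)
    (hi₂ : Set.range i = (f ∘ q) ⁻¹' {y})
    (hi₃ : ∀ p, Function.Injective (mfderiv 𝓘(ℂ, E₀) 𝓘(ℂ, E) i p))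
    (hsub : ∀ p, Function.Surjective (mfderiv 𝓘(ℂ, E) 𝓘(ℂ, E') (f ∘ q) (i p)))
    (hgen : ∃ p, Function.Bijective (mfderiv 𝓘(ℂ, E) 𝓘(ℂ, E) q (i p))) :
    (kod E₀ (fun (D : Set X') p g => ∃ e, IsLocalEq E D e (i p) ∧ ∀ᶠ q in 𝓝 p, g q = e (i q)) Δ' +
      kod E' (fun (G : Set Y) z g => IsLocalEq E' G g z) (orbBase E E' f Δ) ≤
      kod E (fun (D : Set X') z g => IsLocalEq E D g z) Δ') ∧
    ((∀ G, IsPrime E' G → ∃ D', IsPrime E D' ∧ q '' D' = f ⁻¹' G ∧ (D' ∩ S).Nonempty) →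
      kod E₀ (fun (D : Set X') p g => ∃ e, IsLocalEq E D e (i p) ∧ ∀ᶠ q in 𝓝 p, g q = e (i q)) Δ' +
      kod E' (fun (G : Set Y) z g => IsLocalEq E' G g z) (orbBase E E' (f ∘ q) Δ') ≤
      kod E (fun (D : Set X') z g => IsLocalEq E D g z) Δ') := by
  refine ⟨?_, fun hex => ?_⟩
  · exact Vale.Agent.P281.H76.S.main hW hE f hf U π hB Δ hb hΔ q hq hs Δ' hb' y
      (isLogMap_mono hlog hy) htr i hi hi₁ hi₂ hi₃ hd hsub hgen
  · exact Vale.Agent.P281.H76.S.main' hW hE f hf U π hB Δ hb hΔ q hq hs Δ' hb' y S hS hy hlog hex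
      htr i hi hi₁ hi₂ hi₃ hd hsub hgen

end Vale.Agent.Results.P281.SingularCovers
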